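import Vale.Agent.P281.H383.ULC.Core
import Vale.Agent.P281.H383.ULF.Fin
import Vale.Agent.P281.H383.C.All
import Vale.Agent.P281.H349.ULC.Alb0C

/-!
# P281, project T-ULC (helper383): all the blocks plugged, except `BoundCUStmt`
-/

open Set Filter Metric Vale.Agent.P281 Vale.Agent.P281.H713
open scoped Topology ContDiff Manifold

noncomputable section

namespace Vale.Agent.P281.H383.ULC

/-- **T-UL for the class C**, from the block B5C -/
theorem tulC_all (bound : BoundCUStmt) : TULCStmt :=
  tulC_of H969.TL.crit H383.Gen.compl H485.Gen.har H737.Gen.exc H364.TD.fibIn H383.U.liftT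
    H383.C.cTameOK H969.TL.famU bound
    (H349.ULC.alb0C H64.TK.inputs H383.C.dglob H383.C.boundC)
    (H68.UL.mix_of H615.UL.mixRank (H511.UL.hasUL_of H495.UL.logExt)) H615.UL.xOpen
    H225.UL.unitNorm H349.UL.fibX

end Vale.Agent.P281.H383.ULC
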